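import Vale.Agent.P267L.Defs

/-! P267, the ergodic problem: definitions. -/

open scoped Manifold ContDiff Topology ComplexOrder
open Filter Metric Set Matrix

noncomputable section

namespace Vale.Agent.P267

open Vale.Agent.P272 (Mx LM DM Frm IsF GM)

section Atlas
variable {n : ℕ} {X : Type} [TopologicalSpace X]

/-- A Hermitian metric on the cotangent bundle. -/
structure Herm (A : P271.Atl n X) (H : A.ι → P271.Cn n → Mx n) : Prop where
  sm : ∀ a j k, ContDiffOn ℝ ∞ (fun z => H a z j k) (A.e a).target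
  pos : ∀ a, ∀ z ∈ (A.e a).target, (H a z).PosDef
  tr : ∀ a b, ∀ z ∈ A.ov a b,
    H b (A.tr a b z) = DM (A.tr a b) z * H a z * (DM (A.tr a b) z)ᴴ

/-- The trace of a form. -/
def trH (A : P271.Atl n X) (H : A.ι → P271.Cn n → Mx n) (φ : Frm A) (p : X) : ℝ :=
  (H (P272.ch A p) (A.e (P272.ch A p) p) * GM A φ p).trace.re

end Atlas

variable {M : Type} [TopologicalSpace M] [ChartedSpace C2 M]

namespace Cov
variable (C : Cov M)

/-- The transition map from the chart `i` to the chart `j`. -/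
def T (i j : C.I) : C2 → C2 := C.ch j ∘ (C.ch i).symm

/-- The height function in a chart. -/
def tau (a : C.ι) : C2 → ℝ := C.t ∘ (C.e a).symm

/-- An invariant Hermitian metric for which the height function is strictly subharmonic. -/
structure Met (H : C.ι → C2 → Mx 2) : Prop where
  sm : ∀ a j k, ContDiffOn ℝ ∞ (fun z => H a z j k) (ball 0 4)
  pos : ∀ a, ∀ z ∈ ball (0 : C2) 4, (H a z).PosDef
  tr : ∀ i j : C.I, ∀ p ∈ (C.ch i).source, p ∈ (C.ch j).source →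
    H j.1 (C.ch j p) = DM (C.T i j) (C.ch i p) * H i.1 (C.ch i p) * (DM (C.T i j) (C.ch i p))ᴴ
  drift : ∀ a, ∀ z ∈ ball (0 : C2) 4, 0 < (H a z * LM (C.tau a) z).trace.re

/-- Local potentials of a real form. -/
structure Fo (φ : C.I → C2 → ℝ) : Prop where
  sm : ∀ i, ContDiffOn ℝ ∞ (φ i) (ball 0 4)
  tr : ∀ i j : C.I, ∀ p ∈ (C.ch i).source, p ∈ (C.ch j).source → LM (φ i) (C.ch i p) =
    (DM (C.T i j) (C.ch i p))ᴴ * LM (φ j) (C.ch j p) * DM (C.T i j) (C.ch i p)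

/-- The glued metric. -/
def gm (K : C.ι → C2 → Mx 2) (i : C.I) (p : M) : Mx 2 := ∑ᶠ j : C.I, (C.rho j p : ℂ) •
  (DM (C.T j i) (C.ch j p) * K j.1 (C.ch j p) * (DM (C.T j i) (C.ch j p))ᴴ)

/-- The quotient by `g ^ N`. -/
structure Orb (N : ℕ) {Y : Type} [TopologicalSpace Y] (π : M → Y) : Prop where
  quo : IsOpenQuotientMap π
  fib : ∀ p q, π p = π q ↔ ∃ m : ℤ, (C.g ^ (m * N)) p = q

/-- The atlas of the quotient. -/
structure Quo (N : ℕ) {Y : Type} [TopologicalSpace Y] (π : M → Y) (A : P271.Atl 2 Y)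
    (σ : A.ι → C.I) : Prop where
  tgt : ∀ a, (A.e a).target = ball 0 4
  symm : ∀ a z, (A.e a).symm z = π ((C.ch (σ a)).symm z)
  all : ∀ i : C.I, ∃ a, ∃ m : ℤ, i = ((σ a).1, (σ a).2 - m * N)
  tr : ∀ a b, ∀ z ∈ A.ov a b, ∃ m : ℤ,
    (C.ch (σ a)).symm z ∈ (C.ch ((σ b).1, (σ b).2 - m * N)).source ∧
      A.tr a b =ᶠ[𝓝 z] C.T (σ a) ((σ b).1, (σ b).2 - m * N)

end Cov

end Vale.Agent.P267
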