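import Vale.Agent.P267E.Defs
import Vale.Agent.P272.Mat

/-! P267, the ergodic problem: trace-free Hermitian matrices. -/

open scoped Manifold ContDiff Topology ComplexOrder
open Filter Metric Set Matrix

noncomputable section

namespace Vale.Agent.P267

open Vale.Agent.P272 (Mx LM DM Frm IsF GM)

set_option linter.unusedSectionVars false

theorem EA_id (P B : Mx 2) (m : ℂ) :
    ((P + m • 1) * B).trace ^ 2 - 2 * (P + m • 1).det * B.det =
      (P * (B * P * B)).trace + 2 * m * (P * (B * B)).trace + m ^ 2 * (B * B).trace := by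
  simp [Matrix.trace_fin_two, Matrix.det_fin_two, Matrix.mul_apply, Fin.sum_univ_two]
  ring

theorem EA_fro (B : Mx 2) : (Bᴴ * B).trace = (fro B : ℂ) := by
  simp only [fro, Matrix.trace_fin_two, Matrix.mul_apply, Fin.sum_univ_two,
    Matrix.conjTranspose_apply, Complex.star_def, Complex.conj_mul']
  push_cast
  ring

theorem fro_tr {H B : Mx 2} {m : ℝ} (hm : 0 < m) (hH : (H - (m : ℂ) • 1).PosSemidef)
    (hB : B.IsHermitian) (h0 : (H * B).trace.re = 0) :
    m ^ 2 * fro B ≤ -2 * H.det.re * B.det.re := by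
  have e : H = (H - (m : ℂ) • 1) + (m : ℂ) • 1 := (sub_add_cancel _ _).symm
  have hH' : H.IsHermitian := by
    rw [e]
    refine hH.1.add ?_
    rw [Matrix.IsHermitian, Matrix.conjTranspose_smul, Matrix.conjTranspose_one, Complex.star_def,
      Complex.conj_ofReal]
  have h1 : (H * B).trace = 0 := by
    refine Complex.ext h0 (Complex.conj_eq_iff_im.1 ?_)
    rw [← Complex.star_def, ← Matrix.trace_conjTranspose, Matrix.conjTranspose_mul, hB.eq, hH'.eq,
      Matrix.trace_mul_comm]
  have h2 := P272.trace_mul_nonneg hH (hH.conjTranspose_mul_mul_same B)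
  have h3 := P272.trace_mul_nonneg hH (Matrix.posSemidef_conjTranspose_mul_self B)
  have h4 := EA_fro B
  have h5 := EA_id (H - (m : ℂ) • 1) B m
  rw [hB.eq] at h2 h3 h4
  rw [← e, h1, h4, P272.det_eq_re hH', P272.det_eq_re hB] at h5
  generalize ((H - (m : ℂ) • 1) * (B * (H - (m : ℂ) • 1) * B)).trace = x at h2 h5
  generalize ((H - (m : ℂ) • 1) * (B * B)).trace = y at h3 h5
  generalize H.det.re = a at h5 ⊢
  generalize B.det.re = b at h5 ⊢
  have h6 := congrArg Complex.re h5
  simp [sq] at h6
  nlinarith [mul_nonneg hm.le h3]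

end Vale.Agent.P267
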