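import Vale.Agent.P267E.EA

/-! P267, the ergodic problem: uniform constants. -/

open scoped Manifold ContDiff Topology ComplexOrder
open Filter Metric Set Matrix

noncomputable section

namespace Vale.Agent.P267

open Vale.Agent.P272 (Mx LM DM Frm IsF GM)

set_option linter.unusedSectionVars false

theorem fro_unif {ι : Type} [Fintype ι] {H : ι → C2 → Mx 2}
    (hc : ∀ a j k, ContinuousOn (fun z => H a z j k) (ball 0 4))
    (hp : ∀ a, ∀ z ∈ ball (0 : C2) 4, (H a z).PosDef) :
    ∃ c : ℝ, 0 < c ∧ ∀ a, ∀ z ∈ closedBall (0 : C2) 1, ∀ B : Mx 2, B.IsHermitian →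
      (H a z * B).trace.re = 0 → fro B ≤ c * -B.det.re := by
  have hs : closedBall (0 : C2) 1 ⊆ ball 0 4 := closedBall_subset_ball (by norm_num)
  have hd : Continuous fun A : Mx 2 => A.det.re :=
    Complex.continuous_re.comp continuous_id.matrix_det
  have h1 : ∀ a, ∃ c : ℝ, ∀ z ∈ closedBall (0 : C2) 1,
      ‖2 * (H a z + 1).det.re ^ 2 / (H a z).det.re‖ ≤ c := fun a => by
    have hH : ContinuousOn (H a) (closedBall (0 : C2) 1) :=
      continuousOn_pi.2 fun j => continuousOn_pi.2 fun k => (hc a j k).mono hs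
    refine (isCompact_closedBall (0 : C2) 1).exists_bound_of_continuousOn ?_
    exact (continuousOn_const.mul
      ((hd.comp_continuousOn (hH.add continuousOn_const)).pow 2)).div (hd.comp_continuousOn hH)
      fun z hz => (P272.det_re_pos (hp a z (hs hz))).ne'
  choose c hc' using h1
  refine ⟨∑ a, |c a| + 1, by positivity, fun a z hz B hB h0 => ?_⟩
  have hP := hp a z (hs hz)
  have d1 := P272.det_re_pos hP
  have d2 := P272.det_re_pos (hP.add PosDef.one)
  have h2 := fro_tr (div_pos d1 d2) (P272.psd_sub_ratio PosDef.one hP) hB h0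
  have h3 : 2 * (H a z + 1).det.re ^ 2 / (H a z).det.re ≤ ∑ a, |c a| + 1 :=
    (le_abs_self _).trans ((hc' a z hz).trans ((le_abs_self _).trans
      ((Finset.single_le_sum (f := fun a => |c a|) (fun _ _ => abs_nonneg _)
        (Finset.mem_univ a)).trans (le_add_of_nonneg_right zero_le_one))))
  have h4 : 0 ≤ fro B := by
    unfold fro
    positivity
  generalize (H a z).det.re = x at *
  generalize (H a z + 1).det.re = y at *
  have h5 : 0 ≤ -B.det.re := by
    by_contra h
    nlinarith [mul_nonneg (sq_nonneg (x / y)) h4, mul_pos d1 (neg_pos.2 (not_le.1 h))]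
  refine le_trans ?_ (mul_le_mul_of_nonneg_right h3 h5)
  rw [div_pow, div_mul_eq_mul_div, div_le_iff₀ (by positivity)] at h2
  rw [div_mul_eq_mul_div, le_div_iff₀ d1]
  refine le_of_mul_le_mul_right ?_ d1
  nlinarith

end Vale.Agent.P267
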