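import Vale.Agent.P267D.DE

/-! P267, the ergodic problem: the solution. -/

open scoped Manifold ContDiff Topology ComplexOrder
open Filter Metric Set Matrix

noncomputable section

namespace Vale.Agent.P267

open Vale.Agent.P272 (Mx LM DM Frm IsF GM)

set_option linter.unusedSectionVars false

open Vale.Agent.P271 Vale.Agent.P227 Vale.Agent.P272.AL

variable {n : ℕ} {X : Type} [TopologicalSpace X] [T2Space X] [CompactSpace X]

theorem EG_open {F g : X → ℝ} (hF : Continuous F) (hg : Continuous g) :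
    IsOpen {s : ℝ | ∀ p, 0 < F p + s * g p} := by
  refine isOpen_iff_mem_nhds.2 fun s hs => ?_
  have c : Continuous fun z : ℝ × X => F z.2 + z.1 * g z.2 := by fun_prop
  exact (isCompact_univ.eventually_forall_of_forall_eventually
    (P := fun t p => 0 < F p + t * g p) fun p _ =>
      c.continuousAt.eventually (lt_mem_nhds (hs p))).mono fun t ht p => ht p (mem_univ p)

theorem EG_ne {F g : X → ℝ} (hF : Continuous F) (hg : Continuous g) (h0 : ∀ p, 0 < g p) :
    ∃ s : ℝ, ∀ p, 0 < F p + s * g p := by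
  obtain ⟨B, hB⟩ := isCompact_univ.bddAbove_image
    (hF.neg.div hg fun p => (h0 p).ne').continuousOn
  refine ⟨B + 1, fun p => ?_⟩
  have h1 : -F p / g p ≤ B := hB ⟨p, mem_univ p, rfl⟩
  rw [div_le_iff₀ (h0 p)] at h1
  linarith [h0 p]

theorem op_erg [ConnectedSpace X] [MeasurableSpace X] {M : Model n X} {C : Cut M} {c K : ℝ}
    {A : M.ι → E (n + n) → Mat (n + n)} {D : (X → ℝ) → X → ℝ} (hn : 0 < n) (hc : 0 < c)
    (hK : 0 ≤ K) (h : Op C c K A D) (hL : ∀ u, M.Sm u → (∀ p, D u p = 0) → ∀ p q, u p = u q)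
    {f g : X → ℝ} (hf : M.Sm f) (hg : M.Sm g) (h0 : ∀ p, 0 < g p) :
    ∃ (u : X → ℝ) (s : ℝ), M.Sm u ∧ ∀ p, D u p + f p + s * g p = 0 := by
  have z0 : ∀ p, D (fun _ => 0) p = 0 := fun p => h.zero (sm_const M 0) EventuallyEq.rfl
  have o1 : IsOpen {s : ℝ | ∃ u, M.Sm u ∧ ∀ p, 0 < D u p + f p + s * g p} := by
    refine isOpen_iff_mem_nhds.2 fun s ⟨u, hu, hs⟩ => ?_
    exact mem_of_superset ((EG_open ((h.sm u hu).continuous.add hf.continuous)
      hg.continuous).mem_nhds hs) fun t ht => ⟨u, hu, ht⟩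
  have o2 : IsOpen {s : ℝ | ∃ u, M.Sm u ∧ ∀ p, 0 < -(D u p + f p) + s * -g p} := by
    refine isOpen_iff_mem_nhds.2 fun s ⟨u, hu, hs⟩ => ?_
    exact mem_of_superset ((EG_open ((h.sm u hu).continuous.add hf.continuous).neg
      hg.continuous.neg).mem_nhds hs) fun t ht => ⟨u, hu, ht⟩
  obtain ⟨a, ha⟩ := EG_ne hf.continuous hg.continuous h0
  obtain ⟨b, hb⟩ := EG_ne hf.continuous.neg hg.continuous h0
  by_contra k
  obtain ⟨s, -, ⟨u, hu, h1⟩, v, hv, h2⟩ := isPreconnected_univ _ _ o1 o2 (fun s _ => by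
    rcases erg_alt hn hc hK h (sm_add hf (sm_mul (sm_const M s) hg)) with
      ⟨u, hu, e⟩ | ⟨u, hu, e⟩ | ⟨r, u, hu, e, e'⟩
    · exact Or.inl ⟨u, hu, fun p => by linarith [e p]⟩
    · exact Or.inr ⟨u, hu, fun p => by linarith [e p]⟩
    · have r0 : r ≠ 0 := fun r0 => e'.elim (fun k => k r0) fun ⟨p, q, k⟩ =>
        k (hL u hu (fun p => by simpa [r0] using e p) p q)
      refine absurd ⟨fun p => r⁻¹ * u p, s, sm_mul (sm_const M _) hu, fun p => ?_⟩ k
      rw [h.const_mul hu, eq_neg_of_add_eq_zero_left (e p), mul_neg, inv_mul_cancel_left₀ r0]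
      ring)
    ⟨a, mem_univ _, _, sm_const M 0, fun p => by rw [z0, zero_add]; exact ha p⟩
    ⟨-b, mem_univ _, _, sm_const M 0, fun p => by rw [z0, zero_add, neg_mul_neg]; exact hb p⟩
  obtain ⟨q, -, hq⟩ := isCompact_univ.exists_isMaxOn univ_nonempty
    (sm_sub hu hv).continuous.continuousOn
  have h3 := h.max _ (sm_sub hu hv) q fun y => hq (mem_univ y)
  rw [h.sub hu hv] at h3
  linarith [h1 q, h2 q]

end Vale.Agent.P267
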