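import Vale.Agent.P267E.Defs
import Vale.Agent.P272.Loc
import Vale.Agent.P272.Mat

/-! P267, the ergodic problem: local metrics. -/

open scoped Manifold ContDiff Topology ComplexOrder
open Filter Metric Set Matrix

noncomputable section

namespace Vale.Agent.P267

open Vale.Agent.P272 (Mx LM DM Frm IsF GM)

set_option linter.unusedSectionVars false

theorem loc_met {φ : C2 → ℝ} (hφ : ContDiffOn ℝ ∞ φ (ball 0 4))
    (hd : ∀ z ∈ ball (0 : C2) 4, ∃ v, 0 < lev φ z v) :
    ∃ K : C2 → Mx 2, (∀ j k, ContDiff ℝ ∞ fun z => K z j k) ∧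
      ∀ z, ‖z‖ ≤ 2 → (K z).PosDef ∧ 0 < (K z * LM φ z).trace.re := by
  obtain ⟨g, hg⟩ := exists_contMDiffMap_forall_mem_convex_of_local_const (n := ⊤) 𝓘(ℝ, C2)
    (t := fun z : C2 => {K : Fin 2 → Fin 2 → ℂ | ‖z‖ ≤ 2 →
      (Matrix.of K).PosDef ∧ 0 < (Matrix.of K * LM φ z).trace.re})
    (fun z K hK K' hK' a b ha hb hab hz => by
      obtain ⟨h1, h2⟩ := hK hz
      obtain ⟨h3, h4⟩ := hK' hz
      rw [show Matrix.of (a • K + b • K') = a • Matrix.of K + b • Matrix.of K' from rfl, add_mul,
        smul_mul_assoc, smul_mul_assoc, trace_add, trace_smul, trace_smul, Complex.add_re,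
        Complex.smul_re, Complex.smul_re, smul_eq_mul, smul_eq_mul]
      rcases ha.eq_or_lt with rfl | ha'
      · have hb' : 0 < b := by linarith
        rw [zero_smul, zero_add, zero_mul, zero_add]
        exact ⟨h3.smul hb', mul_pos hb' h4⟩
      · exact ⟨(h1.smul ha').add_posSemidef (h3.posSemidef.smul hb),
          add_pos_of_pos_of_nonneg (mul_pos ha' h2) (mul_nonneg hb h4.le)⟩) fun x => by
    by_cases hx : ‖x‖ ≤ 2
    · have hb : x ∈ ball (0 : C2) 4 := mem_ball_zero_iff.2 (by linarith)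
      have hc := hφ.contDiffAt (isOpen_ball.mem_nhds hb)
      obtain ⟨v, hv⟩ := hd x hb
      have h1 : 0 < (vecMulVec v (star v) * LM φ x).trace.re := by
        rw [vecMulVec_mul, trace_vecMulVec, dotProduct_comm, ← dotProduct_mulVec,
          ← P272.Lev_eq_LM hc, P272.Lev_eq_fderiv hc]
        exact div_pos hv (by norm_num)
      have hL : ContinuousAt (LM φ) x := continuousAt_pi.2 fun j => continuousAt_pi.2 fun k =>
        (P272.contDiffAt_LM hc j k).continuousAt
      have h2 : ContinuousAt (fun p : ℝ × C2 =>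
          ((vecMulVec v (star v) + p.1 • (1 : Mx 2)) * LM φ p.2).trace.re) (0, x) :=
        Complex.continuous_re.continuousAt.comp ((continuous_id.matrix_trace).continuousAt.comp
          (ContinuousAt.mul (by fun_prop) (hL.comp_of_eq continuousAt_snd rfl)))
      have h3 := h2.eventually (lt_mem_nhds (by simpa using h1))
      rw [nhds_prod_eq] at h3
      obtain ⟨ε, h4, h5⟩ := ((h3.curry.filter_mono nhdsWithin_le_nhds).and
        (self_mem_nhdsWithin (s := Ioi (0 : ℝ)))).exists
      exact ⟨vecMulVec v (star v) + ε • (1 : Mx 2), h4.mono fun y hy _ =>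
        ⟨.posSemidef_add (posSemidef_vecMulVec_self_star v) (PosDef.one.smul h5), hy⟩⟩
    · exact ⟨0, (continuous_norm.continuousAt.eventually (lt_mem_nhds (not_le.1 hx))).mono
        fun y hy h => absurd h hy.not_ge⟩
  exact ⟨fun z => Matrix.of (g z), fun j k =>
    contDiff_pi.1 (contDiff_pi.1 g.contMDiff.contDiff j) k, hg⟩

end Vale.Agent.P267
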