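import Vale.Agent.P267E.EP

/-! P267, the ergodic problem: the glued metric is invariant. -/

open scoped Manifold ContDiff Topology ComplexOrder
open Filter Metric Set Matrix

noncomputable section

namespace Vale.Agent.P267

open Vale.Agent.P272 (Mx LM DM Frm IsF GM)

set_option linter.unusedSectionVars false

variable {M : Type} [TopologicalSpace M] [ChartedSpace C2 M] [T2Space M]

namespace Cov
variable (C : Cov M)

variable {K : C.ι → C2 → Mx 2}

theorem gm_sum {i l : C.I} {p : M} (hl : p ∈ (C.ch l).source) :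
    C.gm K i p = ∑ j ∈ C.nb l, (C.rho j p : ℂ) •
      (DM (C.T j i) (C.ch j p) * K j.1 (C.ch j p) * (DM (C.T j i) (C.ch j p))ᴴ) := by
  refine finsum_eq_sum_of_support_subset _ fun j hj => ?_
  have h : C.rho j p ≠ 0 := fun h0 => hj (by
    show (C.rho j p : ℂ) • _ = 0
    rw [h0, Complex.ofReal_zero, zero_smul])
  exact Finset.mem_coe.2 (C.mem_nb hl (C.rho_supp h).1)

theorem gm_shift (i : C.I) (k : ℤ) (p : M) :
    C.gm K (i.1, i.2 - k) ((C.g ^ k) p) = C.gm K i p := by
  unfold gm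
  rw [← finsum_comp_equiv ((Equiv.refl C.ι).prodCongr (Equiv.subRight k))]
  refine finsum_congr fun j => ?_
  have e : ((Equiv.refl C.ι).prodCongr (Equiv.subRight k)) j = (j.1, j.2 - k) := rfl
  have e1 : C.rho (j.1, j.2 - k) ((C.g ^ k) p) = C.rho j p := by
    show C.ρ j.1 ((C.g ^ (j.2 - k)) ((C.g ^ k) p)) = C.ρ j.1 ((C.g ^ j.2) p)
    rw [← C.gz_add, sub_add_cancel]
  rw [e, e1, C.T_shift j i k, C.ch_shift j k p]

theorem gm_tr {i l : C.I} {p : M} (hi : p ∈ (C.ch i).source) (hl : p ∈ (C.ch l).source) :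
    C.gm K l p = DM (C.T i l) (C.ch i p) * C.gm K i p * (DM (C.T i l) (C.ch i p))ᴴ := by
  rw [C.gm_sum (i := l) hi, C.gm_sum (i := i) hi, Finset.mul_sum, Finset.sum_mul]
  refine Finset.sum_congr rfl fun j _ => ?_
  by_cases h : C.rho j p = 0
  · rw [h, Complex.ofReal_zero, zero_smul, zero_smul, Matrix.mul_zero, Matrix.zero_mul]
  · rw [C.DM_chain (C.rho_supp h).1 hi hl, conjTranspose_mul, Matrix.mul_smul, Matrix.smul_mul]
    simp only [Matrix.mul_assoc]

end Cov

end Vale.Agent.P267
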