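import Vale.Agent.P267E.EK2

/-! P267, the ergodic problem: the glued metric is smooth. -/

open scoped Manifold ContDiff Topology ComplexOrder
open Filter Metric Set Matrix

noncomputable section

namespace Vale.Agent.P267

open Vale.Agent.P272 (Mx LM DM Frm IsF GM)

set_option linter.unusedSectionVars false

theorem EK3_dm {T : C2 → C2} {w : C2} (hT : AnalyticAt ℂ T w) (a b : Fin 2) :
    ContDiffAt ℝ ∞ (fun z => DM T z a b) w := by
  have h1 : AnalyticAt ℂ (fun z => fderiv ℂ T z (Pi.single b 1)) w :=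
    ((ContinuousLinearMap.apply ℂ C2 (Pi.single b 1 : C2)).analyticAt _).comp hT.fderiv
  exact (analyticAt_pi_iff.1 h1 a).contDiffAt.restrict_scalars ℝ

theorem EK3_con {D K : C2 → Mx 2} {w : C2} (hD : ∀ a b, ContDiffAt ℝ ∞ (fun z => D z a b) w)
    (hK : ∀ a b, ContDiffAt ℝ ∞ (fun z => K z a b) w) (a b : Fin 2) :
    ContDiffAt ℝ ∞ (fun z => (D z * K z * (D z)ᴴ) a b) w := by
  simp only [Matrix.mul_apply, conjTranspose_apply]
  exact ContDiffAt.sum fun c _ => (ContDiffAt.sum fun d _ => (hD a d).mul (hK d c)).mul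
    (Complex.conjCLE.contDiff.contDiffAt.comp w (hD b c))

variable {M : Type} [TopologicalSpace M] [ChartedSpace C2 M] [T2Space M]

namespace Cov
variable (C : Cov M)

variable {K : C.ι → C2 → Mx 2}

theorem gm_sm (hK : ∀ a j k, ContDiff ℝ ∞ fun z => K a z j k) (i : C.I) (j k : Fin 2) :
    ContDiffOn ℝ ∞ (fun z => C.gm K i ((C.ch i).symm z) j k) (ball 0 4) := by
  intro z hz
  have hz' : z ∈ (C.ch i).target := by rwa [C.ch_target]
  have hp := (C.ch i).map_target hz'
  have hr := (C.ch i).right_inv hz'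
  refine ContDiffWithinAt.congr_of_mem (f := fun w => ∑ l ∈ C.nb i,
    (C.rho l ((C.ch i).symm w) : ℂ) * (DM (C.T l i) (C.T i l w) * K l.1 (C.T i l w) *
      (DM (C.T l i) (C.T i l w))ᴴ) j k) (ContDiffAt.contDiffWithinAt ?_) (fun w hw => ?_) hz
  · refine ContDiffAt.sum fun l _ => ?_
    by_cases hl : (C.ch i).symm z ∈ C.U l 2
    · have h1 := (((C.isCh i).sm _ hp _).1 (C.rho_sm l ((C.ch i).symm z))).self_of_nhds
      have h2 := (C.T_an hp hl.1).1
      have h3 := (C.T_an hl.1 hp).1
      rw [hr] at h1 h2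
      have h4 : ContDiffAt ℝ ∞ (C.T i l) z := h2.contDiffAt.restrict_scalars ℝ
      have h5 := (EK3_con (D := DM (C.T l i)) (K := K l.1) (w := C.T i l z) (EK3_dm h3)
        (fun a b => (hK l.1 a b).contDiffAt) j k).comp z h4
      exact h1.mul h5
    · refine (contDiffAt_const (c := (0 : ℂ))).congr_of_eventuallyEq ?_
      filter_upwards [((C.ch i).continuousAt_symm hz').eventually (C.rho_ev one_lt_two hl)]
        with w hw
      rw [hw, Complex.ofReal_zero, zero_mul]
  · rw [C.gm_sum (l := i) ((C.ch i).map_target (by rwa [C.ch_target])), Matrix.sum_apply]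
    rfl

end Cov

end Vale.Agent.P267
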