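import Vale.Agent.P267E.EK2
import Vale.Agent.P272.Mat

/-! P267, the ergodic problem: the glued metric is positive. -/

open scoped Manifold ContDiff Topology ComplexOrder
open Filter Metric Set Matrix

noncomputable section

namespace Vale.Agent.P267

open Vale.Agent.P272 (Mx LM DM Frm IsF GM)

set_option linter.unusedSectionVars false

variable {M : Type} [TopologicalSpace M] [ChartedSpace C2 M] [T2Space M]

namespace Cov
variable (C : Cov M)

variable {K : C.ι → C2 → Mx 2}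

theorem EK4_ex {i : C.I} {p : M} (hp : p ∈ (C.ch i).source) :
    ∃ j ∈ C.nb i, C.rho j p ≠ 0 := by
  refine Finset.exists_ne_zero_of_sum_ne_zero ?_
  rw [C.rho_sum fun l hl => C.mem_nb hp hl]
  exact one_ne_zero

theorem gm_pos (hK : ∀ a z, ‖z‖ ≤ 2 → (K a z).PosDef) {i : C.I} {p : M}
    (hp : p ∈ (C.ch i).source) : (C.gm K i p).PosDef := by
  classical
  have key : ∀ j : C.I, C.rho j p ≠ 0 → ((C.rho j p : ℂ) •
      (DM (C.T j i) (C.ch j p) * K j.1 (C.ch j p) * (DM (C.T j i) (C.ch j p))ᴴ)).PosDef := by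
    intro j hj
    have h1 := C.rho_supp hj
    have h2 := hK j.1 _ (h1.2.trans one_le_two)
    have h3 : (0 : ℂ) < (C.rho j p : ℂ) :=
      Complex.zero_lt_real.2 (lt_of_le_of_ne (C.rho_nonneg j p) hj.symm)
    refine PosDef.smul ?_ h3
    rw [← star_eq_conjTranspose, Matrix.IsUnit.posDef_star_right_conjugate_iff (C.DM_unit h1.1 hp)]
    exact h2
  obtain ⟨j, hj, h0⟩ := C.EK4_ex hp
  rw [C.gm_sum hp, ← Finset.add_sum_erase _ _ hj]
  refine (key j h0).add_posSemidef (posSemidef_sum _ fun l _ => ?_)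
  by_cases h : C.rho l p = 0
  · rw [h, Complex.ofReal_zero, zero_smul]
    exact PosSemidef.zero
  · exact (key l h).posSemidef

theorem gm_drift (hK : ∀ a z, ‖z‖ ≤ 2 → 0 < (K a z * LM (C.tau a) z).trace.re) {i : C.I} {p : M}
    (hp : p ∈ (C.ch i).source) :
    0 < (C.gm K i p * LM (C.tau i.1) (C.ch i p)).trace.re := by
  have key : ∀ j : C.I, C.rho j p ≠ 0 → 0 < (((C.rho j p : ℂ) •
      (DM (C.T j i) (C.ch j p) * K j.1 (C.ch j p) * (DM (C.T j i) (C.ch j p))ᴴ)) *
        LM (C.tau i.1) (C.ch i p)).trace.re := by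
    intro j hj
    have h1 := C.rho_supp hj
    have h2 := hK j.1 _ (h1.2.trans one_le_two)
    have h3 : LM (C.tau j.1) (C.ch j p) = (DM (C.T j i) (C.ch j p))ᴴ *
        LM (C.tau i.1) (C.ch i p) * DM (C.T j i) (C.ch j p) := C.fo_tau.tr j i p h1.1 hp
    have h4 : (DM (C.T j i) (C.ch j p) * K j.1 (C.ch j p) * (DM (C.T j i) (C.ch j p))ᴴ *
        LM (C.tau i.1) (C.ch i p)).trace =
        (K j.1 (C.ch j p) * LM (C.tau j.1) (C.ch j p)).trace := by
      rw [h3, Matrix.mul_assoc, Matrix.mul_assoc, trace_mul_comm]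
      simp only [Matrix.mul_assoc]
    rw [Matrix.smul_mul, trace_smul, h4, smul_eq_mul, Complex.re_ofReal_mul]
    exact mul_pos (lt_of_le_of_ne (C.rho_nonneg j p) hj.symm) h2
  obtain ⟨j, hj, h0⟩ := C.EK4_ex hp
  rw [C.gm_sum hp, Finset.sum_mul, trace_sum, Complex.re_sum]
  refine Finset.sum_pos' (fun l _ => ?_) ⟨j, hj, key j h0⟩
  by_cases h : C.rho l p = 0
  · rw [h, Complex.ofReal_zero, zero_smul, Matrix.zero_mul, trace_zero, Complex.zero_re]
  · exact (key l h).le

end Cov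

end Vale.Agent.P267
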