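import Vale.Agent.P267E.ET
import Vale.Agent.P267D.DC

/-! P267, the ergodic problem: the Laplacian of a Hermitian metric. -/

open scoped Manifold ContDiff Topology ComplexOrder
open Filter Metric Set Matrix

noncomputable section

namespace Vale.Agent.P267

open Vale.Agent.P272 (Mx LM DM Frm IsF GM)

set_option linter.unusedSectionVars false

open Vale.Agent.P271 Vale.Agent.P227 Vale.Agent.P272.AL

variable {n : ℕ} {X : Type} [TopologicalSpace X] [T2Space X] [CompactSpace X]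

theorem Herm.op [MeasurableSpace X] {M : Model n X} (C : Cut M) {H : M.ι → Cn n → Mx n}
    (hH : Herm M.toAtl H) : ∃ (c K : ℝ) (A : M.ι → E (n + n) → Mat (n + n)), 0 < c ∧ 0 ≤ K ∧
      Op C c K A fun u => trH M.toAtl H (P272.ddc M.toAtl u) := by
  have hq : ∀ {G : Mx n}, G.PosDef → ∀ v : Fin (n + n) → ℝ,
      0 ≤ v ⬝ᵥ rl G *ᵥ v ∧ (v ≠ 0 → 0 < v ⬝ᵥ rl G *ᵥ v) := fun {G} hG v => by
    have e := rl_quad G (WithLp.toLp 2 v) (WithLp.toLp 2 v)
    refine ⟨e ▸ (Complex.nonneg_iff.1 (hG.posSemidef.dotProduct_mulVec_nonneg _)).1, fun hv =>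
      e ▸ (Complex.pos_iff.1 (hG.dotProduct_mulVec_pos fun h => hv ?_)).1⟩
    exact congrArg WithLp.ofLp ((Lc n).map_eq_zero_iff.1 h)
  refine ext_op C (fun a p => (1 / 2 : ℝ) • Pq (Jm n)ᵀ (rl (H a (M.e a p)))) _
    (fun a i j => ?_) (fun a p hp => ?_) fun u hu a p hp => ?_
  · have h1 : ∀ i j, ContDiffOn ℝ ∞ (fun z => rl (H a z) i j) (M.e a).target := fun i j z hz =>
      (contDiffAt_rl (fun j k => (hH.sm a j k).contDiffAt ((M.e a).open_target.mem_nhds hz))
        i j).contDiffWithinAt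
    have h2 : ContDiffOn ℝ ∞ (fun z => ((1 / 2 : ℝ) • Pq (Jm n)ᵀ (rl (H a z))) i j)
        (M.e a).target := by
      simp only [Matrix.smul_apply, smul_eq_mul, ALPq_apply]
      exact contDiffOn_const.mul (contDiffOn_const.mul ((h1 i j).add (ContDiffOn.sum fun l _ =>
        ContDiffOn.sum fun k _ => contDiffOn_const.mul (h1 k l))))
    exact h2.congr fun z hz => by simp only [Atl.loc, (M.e a).right_inv hz]
  · have h1 := hH.pos a _ ((M.e a).map_source hp)
    refine ⟨(Pq_symm _ (rl_symm h1.1)).smul _, fun v hv => ?_⟩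
    rw [smul_mulVec, dotProduct_smul, Pq_quad, smul_eq_mul]
    have := (hq h1 v).2 hv
    have := (hq h1 ((Jm n)ᵀ *ᵥ v)).1
    positivity
  · have h1 := hH.pos a _ ((M.e a).map_source hp)
    have h := (P272.isF_ddc hu).smAt ((M.e a).map_source hp)
    rw [hH.trH_eq (P272.isF_ddc hu) hp, smul_ct, ← ct_Pq]
    rw [← Lc_ra] at h h1 ⊢
    have e := rl_LM h
    rw [show P227.hs (fun x => M.loc a u (Lc n x)) (ra M a p) =
      P227.hs (fun y => P272.ddc M.toAtl u a (Lc n y)) (ra M a p) from rfl, ← e, rl_ct h1.1]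
    ring

end Vale.Agent.P267
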