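import Vale.Agent.P267E.Defs
import Vale.Agent.P272.Loc

/-! P267, the ergodic problem: transition maps and forms. -/

open scoped Manifold ContDiff Topology ComplexOrder
open Filter Metric Set Matrix

noncomputable section

namespace Vale.Agent.P267

open Vale.Agent.P272 (Mx LM DM Frm IsF GM)

set_option linter.unusedSectionVars false

variable {M : Type} [TopologicalSpace M] [ChartedSpace C2 M] [T2Space M]

namespace Cov
variable (C : Cov M)

theorem EP_ev {i j : C.I} {p : M} (hi : p ∈ (C.ch i).source) (hj : p ∈ (C.ch j).source) :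
    ∀ᶠ z in 𝓝 (C.ch i p), (C.ch j).symm (C.T i j z) = (C.ch i).symm z := by
  have h1 := ((C.ch i).tendsto_symm hi).eventually ((C.ch j).open_source.mem_nhds hj)
  filter_upwards [h1] with z hz
  exact (C.ch j).left_inv hz

theorem T_an {i j : C.I} {p : M} (hi : p ∈ (C.ch i).source) (hj : p ∈ (C.ch j).source) :
    AnalyticAt ℂ (C.T i j) (C.ch i p) ∧ C.T i j (C.ch i p) = C.ch j p :=
  ⟨(C.isCh i).tr (C.isCh j) hi hj, congrArg (C.ch j) ((C.ch i).left_inv hi)⟩

theorem T_shift (i j : C.I) (k : ℤ) : C.T (i.1, i.2 - k) (j.1, j.2 - k) = C.T i j := by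
  funext z
  simp only [T, Function.comp_apply]
  rw [C.ch_symm_shift, C.ch_shift]

theorem DM_chain {i j l : C.I} {p : M} (hi : p ∈ (C.ch i).source) (hj : p ∈ (C.ch j).source)
    (hl : p ∈ (C.ch l).source) :
    DM (C.T i l) (C.ch i p) = DM (C.T j l) (C.ch j p) * DM (C.T i j) (C.ch i p) := by
  obtain ⟨h1, h2⟩ := C.T_an hi hj
  have h3 := (C.T_an hj hl).1
  have e : C.T i l =ᶠ[𝓝 (C.ch i p)] C.T j l ∘ C.T i j := by
    filter_upwards [C.EP_ev hi hj] with z hz
    exact congrArg (C.ch l) hz.symm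
  rw [← h2] at h3 ⊢
  refine Matrix.ext_iff_mulVec.2 fun v => ?_
  rw [← Matrix.mulVec_mulVec, P272.DM_mulVec, P272.DM_mulVec, P272.DM_mulVec, e.fderiv_eq,
    fderiv_comp _ h3.differentiableAt h1.differentiableAt]
  rfl

theorem DM_unit {i j : C.I} {p : M} (hi : p ∈ (C.ch i).source) (hj : p ∈ (C.ch j).source) :
    IsUnit (DM (C.T i j) (C.ch i p)) := by
  have e : C.T i i =ᶠ[𝓝 (C.ch i p)] id := (C.ch i).eventually_right_inverse' hi
  have h1 : DM (C.T i i) (C.ch i p) = 1 := by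
    refine Matrix.ext_iff_mulVec.2 fun v => ?_
    rw [P272.DM_mulVec, e.fderiv_eq, fderiv_id, Matrix.one_mulVec]
    rfl
  rw [C.DM_chain hi hj hi] at h1
  exact IsUnit.of_mul_eq_one_right _ h1

theorem tau_eq (i : C.I) (z : C2) : C.tau i.1 z = C.t ((C.ch i).symm z) + i.2 := by
  rw [C.ch_symm, C.t_gz]
  simp only [tau, Function.comp_apply]
  push_cast
  ring

/-- A smooth real function in a chart. -/
theorem cd_re {f : M → ℝ} {i : C.I} {z : C2} (hz : z ∈ ball (0 : C2) 4)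
    (hf : SmAt (fun q => (f q : ℂ)) ((C.ch i).symm z)) :
    ContDiffAt ℝ ∞ (f ∘ (C.ch i).symm) z := by
  have hz' : z ∈ (C.ch i).target := by rwa [C.ch_target]
  have h1 := (((C.isCh i).sm _ ((C.ch i).map_target hz') _).1 hf).self_of_nhds
  rw [(C.ch i).right_inv hz'] at h1
  have e : f ∘ (C.ch i).symm = Complex.reCLM ∘ ((fun q => (f q : ℂ)) ∘ (C.ch i).symm) :=
    funext fun w => (Complex.ofReal_re _).symm
  rw [e]
  exact Complex.reCLM.contDiff.contDiffAt.comp z h1

theorem EP_cd (i : C.I) {z : C2} (hz : z ∈ ball (0 : C2) 4) : ContDiffAt ℝ ∞ (C.tau i.1) z := by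
  have e : C.tau i.1 = fun w => (C.t ∘ (C.ch i).symm) w + i.2 := funext fun w => C.tau_eq i w
  rw [e]
  exact (C.cd_re hz (C.t_sm _)).add contDiffAt_const

theorem fo_tau : C.Fo fun i => C.tau i.1 := by
  refine ⟨fun i z hz => (C.EP_cd i hz).contDiffWithinAt, fun i j p hi hj => ?_⟩
  obtain ⟨h1, h2⟩ := C.T_an hi hj
  have h3 : ContDiffAt ℝ ∞ (C.tau j.1) (C.T i j (C.ch i p)) := by
    rw [h2]
    exact C.EP_cd j (C.ch_target j ▸ (C.ch j).map_source hj)
  have e : C.tau i.1 =ᶠ[𝓝 (C.ch i p)] C.tau j.1 ∘ C.T i j + fun _ => ((i.2 : ℝ) - j.2) := by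
    filter_upwards [C.EP_ev hi hj] with z hz
    rw [Pi.add_apply, Function.comp_apply, C.tau_eq i, C.tau_eq j, hz]
    ring
  have h4 : ContDiffAt ℝ ∞ (C.T i j) (C.ch i p) := (h1.contDiffAt.restrict_scalars ℝ)
  rw [P272.LM_congr e, P272.LM_add (h3.comp _ h4) contDiffAt_const, P272.LM_const, add_zero,
    P272.LM_comp_hol h3 h1, h2]

end Cov

end Vale.Agent.P267
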