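import Vale.Agent.P267E.Defs

/-! P267, the ergodic problem: the quotient space. -/

open scoped Manifold ContDiff Topology ComplexOrder
open Filter Metric Set Matrix

noncomputable section

namespace Vale.Agent.P267

open Vale.Agent.P272 (Mx LM DM Frm IsF GM)

set_option linter.unusedSectionVars false

variable {M : Type} [TopologicalSpace M] [ChartedSpace C2 M] [T2Space M]

namespace Cov
variable (C : Cov M)

theorem EQ1_t : Continuous C.t := by
  refine continuous_iff_continuousAt.2 fun p => ?_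
  have h := Complex.continuous_re.continuousAt.comp (C.t_sm p).continuousAt
  simpa [Function.comp_def] using h

/-- The orbit relation of `g ^ N`. -/
def EQ1_s (N : ℕ) : Setoid M where
  r p q := ∃ m : ℤ, (C.g ^ (m * N)) p = q
  iseqv := by
    refine ⟨fun p => ⟨0, by simp⟩, ?_, ?_⟩
    · rintro p q ⟨m, rfl⟩
      refine ⟨-m, ?_⟩
      rw [← C.gz_add]
      simp
    · rintro p q r ⟨m, rfl⟩ ⟨l, rfl⟩
      exact ⟨l + m, by rw [add_mul, C.gz_add]⟩

theorem EQ1_closed {N : ℕ} (hN : 0 < N) :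
    IsClosed {x : M × M | ∃ m : ℤ, (C.g ^ (m * N)) x.1 = x.2} := by
  rw [Set.ofPred_exists]
  refine LocallyFinite.isClosed_iUnion (fun x => ?_) fun m => ?_
  · have hc : Continuous fun y : M × M => |C.t y.2 - C.t y.1| :=
      ((C.EQ1_t.comp continuous_snd).sub (C.EQ1_t.comp continuous_fst)).abs
    refine ⟨{y | |C.t y.2 - C.t y.1| < |C.t x.2 - C.t x.1| + 1},
      (isOpen_lt hc continuous_const).mem_nhds (by simp), ?_⟩
    refine (finite_Icc (-⌈|C.t x.2 - C.t x.1| + 1⌉) ⌈|C.t x.2 - C.t x.1| + 1⌉).subset ?_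
    rintro m ⟨y, h1, h2⟩
    have h1' : (C.g ^ (m * N)) y.1 = y.2 := h1
    have h2' : |C.t y.2 - C.t y.1| < |C.t x.2 - C.t x.1| + 1 := h2
    rw [← h1', C.t_gz, add_sub_cancel_left] at h2'
    have h3 : |((m * N : ℤ) : ℝ)| < (⌈|C.t x.2 - C.t x.1| + 1⌉ : ℤ) :=
      h2'.trans_le (Int.le_ceil _)
    have h4 : |m * N| < ⌈|C.t x.2 - C.t x.1| + 1⌉ := by exact_mod_cast h3
    have h5 : |m| ≤ |m * N| := by
      rw [abs_mul]
      refine le_mul_of_one_le_right (abs_nonneg _) ?_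
      rw [abs_of_nonneg (by positivity)]
      exact_mod_cast hN
    exact abs_le.1 (h5.trans h4.le)
  · exact isClosed_eq ((C.g ^ (m * N)).continuous.comp continuous_fst) continuous_snd

theorem EQ1_compact {N : ℕ} (hN : 0 < N) {Y : Type} [TopologicalSpace Y] {π : M → Y}
    (h : C.Orb N π) : CompactSpace Y := by
  have hK : IsCompact (⋃ x : C.ι × Fin N,
      π '' ((C.ch (x.1, ((x.2 : ℕ) : ℤ))).symm '' closedBall 0 1)) := by
    refine isCompact_iUnion fun x => IsCompact.image ?_ h.quo.continuous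
    refine (isCompact_closedBall (0 : C2) 1).image_of_continuousOn
      ((C.ch _).continuousOn_symm.mono ?_)
    rw [C.ch_target]
    exact closedBall_subset_ball (by norm_num)
  refine ⟨(eq_univ_of_forall fun y => ?_) ▸ hK⟩
  obtain ⟨p, rfl⟩ := h.quo.surjective y
  have hN' : (0 : ℤ) < N := by exact_mod_cast hN
  have h0 := Int.emod_nonneg (C.idx p).2 hN'.ne'
  have h1 := Int.emod_lt_of_pos (C.idx p).2 hN'
  have hq := (C.U_shift (C.idx p) ((C.idx p).2 / N * N) 1 p).2 (C.mem_U_idx p)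
  have he : (C.idx p).2 - (C.idx p).2 / N * N = ((((C.idx p).2 % N).toNat : ℕ) : ℤ) := by
    rw [Int.toNat_of_nonneg h0, Int.emod_def]
    ring
  rw [he] at hq
  refine mem_iUnion.2 ⟨((C.idx p).1, ⟨((C.idx p).2 % N).toNat, by omega⟩),
    (C.g ^ ((C.idx p).2 / N * N)) p, ⟨_, ?_, (C.ch _).left_inv hq.1⟩, ?_⟩
  · exact mem_closedBall_zero_iff.2 hq.2.le
  · exact ((h.fib _ _).2 ⟨_, rfl⟩).symm

theorem exists_orb [ConnectedSpace M] {N : ℕ} (hN : 0 < N) :
    ∃ (Y : Type) (_ : TopologicalSpace Y) (π : M → Y), T2Space Y ∧ CompactSpace Y ∧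
      ConnectedSpace Y ∧ C.Orb N π := by
  have hf : ∀ p q, Quotient.mk (C.EQ1_s N) p = Quotient.mk (C.EQ1_s N) q ↔
      ∃ m : ℤ, (C.g ^ (m * N)) p = q := fun p q => Quotient.eq
  have hq : IsOpenQuotientMap (Quotient.mk (C.EQ1_s N)) := by
    refine ⟨Quotient.mk_surjective, continuous_quotient_mk', fun U hU => ?_⟩
    refine isOpen_coinduced.2 ?_
    have he : Quotient.mk (C.EQ1_s N) ⁻¹' (Quotient.mk (C.EQ1_s N) '' U) =
        ⋃ m : ℤ, (C.g ^ (m * N) : M ≃ₜ M) ⁻¹' U := by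
      ext p
      simp only [mem_preimage, mem_image, mem_iUnion]
      constructor
      · rintro ⟨q, hq, e⟩
        obtain ⟨m, rfl⟩ := (hf _ _).1 e.symm
        exact ⟨m, hq⟩
      · rintro ⟨m, hm⟩
        exact ⟨_, hm, ((hf _ _).2 ⟨m, rfl⟩).symm⟩
    have ho : IsOpen (Quotient.mk (C.EQ1_s N) ⁻¹' (Quotient.mk (C.EQ1_s N) '' U)) := by
      rw [he]
      exact isOpen_iUnion fun m => hU.preimage (C.g ^ (m * N)).continuous
    exact ho
  have hO : C.Orb N (Quotient.mk (C.EQ1_s N)) := ⟨hq, hf⟩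
  refine ⟨Quotient (C.EQ1_s N), inferInstance, Quotient.mk _, ?_, C.EQ1_compact hN hO,
    hq.surjective.connectedSpace hq.continuous, hO⟩
  rw [t2Space_iff_of_isOpenQuotientMap hq]
  simp only [hf]
  exact C.EQ1_closed hN

end Cov

end Vale.Agent.P267
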