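import Vale.Agent.P267E.EP

/-! P267, the ergodic problem: the atlas of the quotient. -/

open scoped Manifold ContDiff Topology ComplexOrder
open Filter Metric Set Matrix

noncomputable section

namespace Vale.Agent.P267

open Vale.Agent.P272 (Mx LM DM Frm IsF GM)

set_option linter.unusedSectionVars false

variable {M : Type} [TopologicalSpace M] [ChartedSpace C2 M] [T2Space M]

namespace Cov
variable (C : Cov M)

variable {N : ℕ} {Y : Type} [TopologicalSpace Y] {π : M → Y}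

theorem EQ2_src (i : C.I) (k : ℤ) (p : M) :
    (C.g ^ k) p ∈ (C.ch (i.1, i.2 - k)).source ↔ p ∈ (C.ch i).source := by
  rw [C.ch_source, C.ch_source, ← C.gz_add, sub_add_cancel]

theorem EQ2_cancel (k : ℤ) (p : M) : (C.g ^ k) ((C.g ^ (-k)) p) = p := by
  rw [← C.gz_add, add_neg_cancel, zpow_zero]
  rfl

theorem EQ2_back (h : C.Orb N π) {i : C.I} {m : ℤ} {p : M}
    (hp : p ∈ (C.ch (i.1, i.2 - m * N)).source) :
    ∃ q ∈ (C.ch i).source, π q = π p ∧ C.ch i q = C.ch (i.1, i.2 - m * N) p := by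
  refine ⟨(C.g ^ (-(m * N))) p, (C.EQ2_src i (m * N) _).1 ?_, (h.fib _ _).2 ⟨m, C.EQ2_cancel _ _⟩, ?_⟩
  · rwa [C.EQ2_cancel]
  · rw [← C.ch_shift i (m * N), C.EQ2_cancel]

theorem EQ2_inj (h : C.Orb N π) (hN : 2 * C.R < N) (i : C.I) : InjOn π (C.ch i).source := by
  intro p hp q hq e
  obtain ⟨m, rfl⟩ := (h.fib p q).1 e
  have h1 := abs_le.1 (C.t_ch hp)
  have h2 := abs_le.1 (C.t_ch hq)
  rw [C.t_gz] at h2
  push_cast at h2
  have h3 : m = 0 := by
    have hN0 : (0 : ℝ) ≤ N := Nat.cast_nonneg N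
    by_contra hm
    rcases lt_or_gt_of_ne hm with hm | hm
    · have : (m : ℝ) ≤ -1 := by exact_mod_cast (by omega : m ≤ -1)
      nlinarith [h1.1, h1.2, h2.1, h2.2]
    · have : (1 : ℝ) ≤ m := by exact_mod_cast (by omega : 1 ≤ m)
      nlinarith [h1.1, h1.2, h2.1, h2.2]
  rw [h3, zero_mul, zpow_zero]
  rfl

/-- The chart of the quotient. -/
theorem Orb.chart (h : C.Orb N π) (hN : 2 * C.R < N) (i : C.I) :
    ∃ e : OpenPartialHomeomorph Y C2, e.target = ball 0 4 ∧ e.source = π '' (C.ch i).source ∧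
      (∀ z, e.symm z = π ((C.ch i).symm z)) ∧ ∀ p ∈ (C.ch i).source, e (π p) = C.ch i p := by
  have h1 : InjOn (π ∘ (C.ch i).symm) (C.ch i).target :=
    (C.EQ2_inj h hN i).comp (C.ch i).symm.injOn (C.ch i).symm.mapsTo
  let Q : OpenPartialHomeomorph C2 Y := OpenPartialHomeomorph.ofContinuousOpenRestrict
    (h1.toPartialEquiv _ _) (h.quo.continuous.comp_continuousOn (C.ch i).continuousOn_symm)
    (h.quo.isOpenMap.comp (C.ch i).symm.isOpenEmbedding_restrict.isOpenMap) (C.ch i).open_target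
  refine ⟨Q.symm, C.ch_target i, ?_, fun _ => rfl, fun p hp => ?_⟩
  · change (π ∘ (C.ch i).symm) '' (C.ch i).target = _
    rw [image_comp, (C.ch i).symm_image_target_eq_source]
  · have h2 : π p = Q (C.ch i p) := by
      change _ = π ((C.ch i).symm (C.ch i p))
      rw [(C.ch i).left_inv hp]
    rw [h2]
    exact Q.left_inv ((C.ch i).map_source hp)

theorem Orb.atl (h : C.Orb N π) (h0 : 0 < N) (hN : 2 * C.R < N) :
    ∃ (A : P271.Atl 2 Y) (σ : A.ι → C.I), C.Quo N π A σ := by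
  choose e h1 h2 h3 h4 using h.chart C hN
  set σ : C.ι × Fin N → C.I := fun a => (a.1, ((a.2 : ℕ) : ℤ)) with hσ
  have hall : ∀ i : C.I, ∃ a, ∃ m : ℤ, i = ((σ a).1, (σ a).2 - m * N) := fun i => by
    have hp : (0 : ℤ) < N := by exact_mod_cast h0
    have a1 := Int.emod_nonneg i.2 hp.ne'
    have a2 := Int.emod_lt_of_pos i.2 hp
    refine ⟨(i.1, ⟨(i.2 % N).toNat, by omega⟩), -(i.2 / N), Prod.ext rfl ?_⟩
    have a3 := Int.emod_add_mul_ediv i.2 N
    simp only [hσ, Int.toNat_of_nonneg a1]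
    linarith
  have htr : ∀ i j : C.I, ∀ z ∈ (e i).target ∩ (e i).symm ⁻¹' (e j).source, ∃ m : ℤ,
      (C.ch i).symm z ∈ (C.ch (j.1, j.2 - m * N)).source ∧
        (fun z => e j ((e i).symm z)) =ᶠ[𝓝 z] C.T i (j.1, j.2 - m * N) := by
    rintro i j z ⟨hz, hz'⟩
    rw [h1, ← C.ch_target i] at hz
    rw [mem_preimage, h2, h3] at hz'
    obtain ⟨q, hq, hq'⟩ := hz'
    obtain ⟨m, hm⟩ := (h.fib _ _).1 hq'
    have h5 : (C.ch i).symm z ∈ (C.ch (j.1, j.2 - m * N)).source := by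
      rw [← hm]
      exact (C.EQ2_src j _ q).2 hq
    refine ⟨m, h5, ?_⟩
    filter_upwards [((C.ch i).continuousAt_symm hz).eventually
      ((C.ch (j.1, j.2 - m * N)).open_source.mem_nhds h5)] with w hw
    obtain ⟨q', a1, a2, a3⟩ := C.EQ2_back h hw
    rw [h3, ← a2, h4 j q' a1, a3]
    rfl
  refine ⟨⟨C.ι × Fin N, fun a => e (σ a), fun y => ?_, fun a b z hz => ?_⟩, σ,
    fun a => h1 _, fun a => h3 _, hall, fun a b => htr _ _⟩
  · obtain ⟨p, rfl⟩ := h.quo.surjective y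
    obtain ⟨a, m, hm⟩ := hall (C.idx p)
    have hp : p ∈ (C.ch (C.idx p)).source := (C.ch_source _ _).2 (C.idx_mem p).1
    rw [hm] at hp
    obtain ⟨q, a1, a2, -⟩ := C.EQ2_back h hp
    exact ⟨a, (h2 _).symm ▸ ⟨q, a1, a2⟩⟩
  · obtain ⟨m, a1, a2⟩ := htr _ _ z hz
    have hz1 : z ∈ (C.ch (σ a)).target := by
      rw [C.ch_target, ← h1 (σ a)]
      exact hz.1
    have a3 := (C.T_an ((C.ch (σ a)).map_target hz1) a1).1
    rw [(C.ch (σ a)).right_inv hz1] at a3
    exact a3.congr a2.symm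

end Cov

end Vale.Agent.P267
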