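import Vale.Agent.P267E.Defs
import Vale.Agent.P272.Api
import Vale.Agent.P299.Ba

/-! P267, the ergodic problem: the trace of a form. -/

open scoped Manifold ContDiff Topology ComplexOrder
open Filter Metric Set Matrix

noncomputable section

namespace Vale.Agent.P267

open Vale.Agent.P272 (Mx LM DM Frm IsF GM)

set_option linter.unusedSectionVars false

variable {n : ℕ} {X : Type} [TopologicalSpace X] {A : P271.Atl n X}
  {H : A.ι → P271.Cn n → Mx n} {φ : Frm A}

theorem Herm.trH_eq (hH : Herm A H) (hφ : IsF A φ) {a : A.ι} {p : X}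
    (hp : p ∈ (A.e a).source) :
    trH A H φ p = (H a (A.e a p) * LM (φ a) (A.e a p)).trace.re := by
  have e : A.tr a (P272.ch A p) (A.e a p) = A.e (P272.ch A p) p := by
    rw [P271.Atl.tr, (A.e a).left_inv hp]
  rw [P272.ApiA_rep hφ hp, trH, ← e, hH.tr a _ _ (P272.ApiA_ov hp), Matrix.mul_assoc,
    Matrix.mul_assoc, trace_mul_comm]
  simp only [Matrix.mul_assoc]

theorem Herm.trH_sm (hH : Herm A H) (hφ : IsF A φ) : A.Sm (trH A H φ) := fun a z hz => by
  have h1 : ContDiffWithinAt ℝ ∞ (fun y => (H a y * LM (φ a) y).trace) (A.e a).target z := by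
    simp only [trace, diag_apply, mul_apply]
    exact ContDiffWithinAt.sum fun i _ => ContDiffWithinAt.sum fun j _ =>
      (hH.sm a i j z hz).mul (P272.contDiffAt_LM (hφ.smAt hz) j i).contDiffWithinAt
  refine (Complex.reCLM.contDiff.contDiffAt.comp_contDiffWithinAt _ h1).congr_of_mem
    (fun y hy => ?_) hz
  rw [P271.Atl.loc, hH.trH_eq hφ ((A.e a).map_target hy), (A.e a).right_inv hy]
  rfl

/-- Harmonic functions are constant. -/
theorem Herm.const [CompactSpace X] [ConnectedSpace X] (hH : Herm A H) {u : X → ℝ} (hu : A.Sm u)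
    (h0 : ∀ p, trH A H (P272.ddc A u) p = 0) (p q : X) : u p = u q := by
  obtain ⟨x, -, hx⟩ := isCompact_univ.exists_isMaxOn ⟨p, mem_univ p⟩ hu.continuous.continuousOn
  have key : IsClopen {y | u y = u x} := by
    refine ⟨isClosed_eq hu.continuous continuous_const, isOpen_iff_mem_nhds.2 fun y hy => ?_⟩
    obtain ⟨a, ha⟩ := A.cover y
    have hy' : u y = u x := hy
    have h1 := P299.smp (A.e a).open_target (G := fun z => (H a z)⁻¹)
      (continuousOn_pi.2 fun j => continuousOn_pi.2 fun k z hz => (P272.ApiA_inv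
        (fun j k => (hH.sm a j k).contDiffAt ((A.e a).open_target.mem_nhds hz))
        (hH.pos a z hz).det_pos.ne' j k).continuousAt.continuousWithinAt)
      (fun z hz => (hH.pos a z hz).inv) (hu a) (fun z hz => by
        have h2 := hH.trH_eq (P272.isF_ddc hu) ((A.e a).map_target hz)
        rw [h0, (A.e a).right_inv hz] at h2
        rw [nonsing_inv_nonsing_inv _ (isUnit_iff_ne_zero.2 (hH.pos a z hz).det_pos.ne')]
        exact h2.le) ((A.e a).map_source ha) fun z _ => by
        rw [P271.Atl.loc, P271.Atl.loc, (A.e a).left_inv ha, hy']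
        exact hx (mem_univ _)
    filter_upwards [((A.e a).continuousAt ha).eventually h1, (A.e a).open_source.mem_nhds ha]
      with w h2 h3
    rw [P271.Atl.loc, P271.Atl.loc, (A.e a).left_inv ha, (A.e a).left_inv h3] at h2
    exact h2.trans hy'
  have h3 : ∀ y, u y = u x := fun y => (key.eq_univ ⟨x, rfl⟩).ge (mem_univ y)
  rw [h3 p, h3 q]

end Vale.Agent.P267
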