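import Vale.Agent.P267E.EP
import Vale.Agent.P267L.LC

/-! P267, the ergodic problem: the curvature form. -/

open scoped Manifold ContDiff Topology ComplexOrder
open Filter Metric Set Matrix

noncomputable section

namespace Vale.Agent.P267

open Vale.Agent.P272 (Mx LM DM Frm IsF GM)

set_option linter.unusedSectionVars false

variable {M : Type} [TopologicalSpace M] [ChartedSpace C2 M] [T2Space M]

namespace Cov
variable (C : Cov M)

theorem ew_U {i : C.I} {p : M} (h : p ∈ (C.ch i).source) : p ∈ C.U i 4 :=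
  ⟨h, mem_ball_zero_iff.1 (C.ch_target i ▸ (C.ch i).map_source h)⟩

theorem ew_sm {F : C.I → M → ℂ} (hF : C.HFr F 4) (i : C.I) {z : C2} (hz : z ∈ ball (0 : C2) 4) :
    ContDiffAt ℝ ∞ (C.wg F i) z := by
  have hp := (C.symm_mem_U i le_rfl (mem_ball_zero_iff.1 hz)).1
  exact ((C.cd_re (f := fun q => ‖F i q‖) hz (hF.met i _ hp)).pow 2).log
    (pow_ne_zero _ (norm_ne_zero_iff.2 (hF.ne i _ hp)))

theorem fo_wg {F : C.I → M → ℂ} (hF : C.HFr F 4) : C.Fo (C.wg F) := by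
  refine ⟨fun i z hz => (C.ew_sm hF i hz).contDiffWithinAt, fun i j p hi hj => ?_⟩
  have hT := C.T_an hi hj
  have hl := (C.ch i).left_inv hi
  have h1 : AnalyticAt ℂ ((F i / F j) ∘ (C.ch i).symm) (C.ch i p) :=
    ((C.isCh i).hol p hi _).1 (hF.hol i j p ⟨C.ew_U hi, C.ew_U hj⟩)
  have h2 : ((F i / F j) ∘ (C.ch i).symm) (C.ch i p) ≠ 0 := by
    rw [Function.comp_apply, hl]
    exact div_ne_zero (hF.ne i p (C.ew_U hi)) (hF.ne j p (C.ew_U hj))
  have h3 : ContDiffAt ℝ ∞ (C.wg F j) (C.T i j (C.ch i p)) := by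
    rw [hT.2]
    exact C.ew_sm hF j (mem_ball_zero_iff.2 (C.ew_U hj).2)
  have h4 : ∀ᶠ w in 𝓝 (C.ch i p), (C.ch i).symm w ∈ (C.ch i).source ∩ (C.ch j).source :=
    ((C.ch i).continuousAt_symm ((C.ch i).map_source hi)).eventually_mem
      (((C.ch i).open_source.inter (C.ch j).open_source).mem_nhds (hl.symm ▸ ⟨hi, hj⟩))
  have e : C.wg F i =ᶠ[𝓝 (C.ch i p)] (C.wg F j ∘ C.T i j) +
      fun w => Real.log (‖((F i / F j) ∘ (C.ch i).symm) w‖ ^ 2) := by
    filter_upwards [h4] with w hw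
    have a1 := norm_ne_zero_iff.2 (hF.ne i _ (C.ew_U hw.1))
    have a2 := norm_ne_zero_iff.2 (hF.ne j _ (C.ew_U hw.2))
    simp only [Pi.add_apply, Function.comp_apply, wg, T, (C.ch j).left_inv hw.2, Pi.div_apply,
      norm_div, div_pow]
    rw [Real.log_div (pow_ne_zero _ a1) (pow_ne_zero _ a2), add_sub_cancel]
  rw [P272.LM_congr e, P272.LM_add (h3.comp _ (hT.1.contDiffAt.restrict_scalars ℝ))
    ((((h1.contDiffAt (n := ∞)).restrict_scalars ℝ).norm_sq ℂ).log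
      (pow_ne_zero _ (norm_ne_zero_iff.2 h2))),
    P272.LM_log_normSq h1 h2, add_zero, P272.LM_comp_hol h3 hT.1, hT.2]

theorem wg_per {F : C.I → M → ℂ} {N : ℕ} (hF : C.Pd N F) (i : C.I) (m : ℤ) :
    C.wg F (i.1, i.2 - m * N) = C.wg F i := by
  funext z
  have h := congrFun (congrFun (hF.mul_int m) i) ((C.ch i).symm z)
  simp only [wg, C.ch_symm_shift, ← h]
  rfl

end Cov

end Vale.Agent.P267
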