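import Vale.Agent.P267E.EB
import Vale.Agent.P267E.EK1
import Vale.Agent.P267E.EK3
import Vale.Agent.P267E.EK4
import Vale.Agent.P267E.EW
import Vale.Agent.P267E.EQ1
import Vale.Agent.P267E.EQ2
import Vale.Agent.P267E.EO
import Vale.Agent.P267E.EG
import Vale.Agent.P271.BrK

/-! P267, the ergodic problem: assembly. -/

open scoped Manifold ContDiff Topology ComplexOrder
open Filter Metric Set Matrix

noncomputable section

namespace Vale.Agent.P267

open Vale.Agent.P272 (Mx LM DM Frm IsF GM)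

set_option linter.unusedSectionVars false

theorem Herm.solve {n : ℕ} {X : Type} [TopologicalSpace X] [T2Space X] [CompactSpace X]
    [ConnectedSpace X] (hn : 0 < n) {A : P271.Atl n X} {H : A.ι → P271.Cn n → Mx n}
    (hH : Herm A H) {φ ψ : Frm A} (hφ : IsF A φ) (hψ : IsF A ψ)
    (h0 : ∀ a, ∀ z ∈ (A.e a).target, 0 < (H a z * LM (ψ a) z).trace.re) :
    ∃ (u : X → ℝ) (s : ℝ), A.Sm u ∧ ∀ a, ∀ z ∈ (A.e a).target,
      (H a z * LM (φ a + A.loc a u + s • ψ a) z).trace.re = 0 := by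
  let _ := borel X
  have : BorelSpace X := ⟨rfl⟩
  obtain ⟨M, rfl⟩ := P271.exists_model A
  obtain ⟨C⟩ := P272.AL.exists_cut M
  obtain ⟨c, K, B, hc, hK, h⟩ := hH.op C
  obtain ⟨u, s, hu, he⟩ := op_erg hn hc hK h (fun u hu h1 => hH.const hu h1) (hH.trH_sm hφ)
    (hH.trH_sm hψ) fun p => by
      obtain ⟨a, ha⟩ := M.cover p
      rw [hH.trH_eq hψ ha]
      exact h0 a _ ((M.e a).map_source ha)
  refine ⟨u, s, hu, fun a z hz => ?_⟩
  have hp := (M.e a).map_target hz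
  have e := he ((M.e a).symm z)
  have hd := P272.isF_ddc hu
  simp only [hH.trH_eq hd hp, hH.trH_eq hφ hp, hH.trH_eq hψ hp, (M.e a).right_inv hz] at e
  have h1 := hφ.smAt hz
  have h2 : ContDiffAt ℝ ∞ (M.loc a u) z := hd.smAt hz
  have h3 := hψ.smAt hz
  rw [P272.LM_add (φ := φ a + M.loc a u) (ψ := s • ψ a) (h1.add h2) (h3.const_smul s),
    P272.LM_add h1 h2, P272.LM_smul h3,
    Matrix.mul_add, Matrix.mul_add, Matrix.mul_smul, trace_add, trace_add, trace_smul,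
    Complex.add_re, Complex.add_re, smul_eq_mul, Complex.re_ofReal_mul, ← e]
  exact congrArg (· + _) (add_comm _ _)

variable {M : Type} [TopologicalSpace M] [ChartedSpace C2 M] [T2Space M]

namespace Cov
variable (C : Cov M)

theorem exists_met : ∃ H, C.Met H := by
  have hs : ∀ a, ContDiffOn ℝ ∞ (C.tau a) (ball 0 4) := fun a => C.fo_tau.sm (a, 0)
  choose K h1 h2 using fun a => loc_met (hs a) (C.drift a)
  have key : ∀ i : C.I, ∀ p ∈ (C.ch i).source,
      C.gm K (i.1, 0) ((C.ch (i.1, 0)).symm (C.ch i p)) = C.gm K i p := fun i p hp => by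
    have e := C.ch_symm_shift i i.2 (C.ch i p)
    have e' := C.gm_shift (K := K) i i.2 p
    rw [sub_self] at e e'
    rw [e, (C.ch i).left_inv hp, e']
  have hm : ∀ (a : C.ι), ∀ z ∈ ball (0 : C2) 4, (C.ch (a, 0)).symm z ∈ (C.ch (a, 0)).source ∧
      C.ch (a, 0) ((C.ch (a, 0)).symm z) = z := fun a z hz =>
    ⟨(C.symm_mem_U _ le_rfl (mem_ball_zero_iff.1 hz)).1.1,
      (C.symm_mem_U _ le_rfl (mem_ball_zero_iff.1 hz)).2⟩
  refine ⟨fun a z => C.gm K (a, 0) ((C.ch (a, 0)).symm z), fun a j k => C.gm_sm h1 (a, 0) j k,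
    fun a z hz => C.gm_pos (fun a z h => (h2 a z h).1) (hm a z hz).1, fun i j p hi hj => ?_,
    fun a z hz => ?_⟩
  · simp only [key i p hi, key j p hj]
    exact C.gm_tr hi hj
  · have e := C.gm_drift (fun a z h => (h2 a z h).2) (hm a z hz).1
    rwa [(hm a z hz).2] at e

variable {C} {N : ℕ} {Y : Type} [TopologicalSpace Y] {π : M → Y} {A : P271.Atl 2 Y}
  {σ : A.ι → C.I}

theorem Quo.ov (h : C.Quo N π A σ) {a b : A.ι} {z : C2} (hz : z ∈ A.ov a b) :
    ∃ (m : ℤ) (p : M), p ∈ (C.ch (σ a)).source ∧ p ∈ (C.ch ((σ b).1, (σ b).2 - m * N)).source ∧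
      C.ch (σ a) p = z ∧ C.ch ((σ b).1, (σ b).2 - m * N) p = A.tr a b z ∧
      DM (C.T (σ a) ((σ b).1, (σ b).2 - m * N)) z = DM (A.tr a b) z := by
  obtain ⟨m, h1, h2⟩ := h.tr a b z hz
  have h3 := C.symm_mem_U (σ a) le_rfl (mem_ball_zero_iff.1 (h.tgt a ▸ hz.1))
  refine ⟨m, _, h3.1.1, h1, h3.2, h2.self_of_nhds.symm, ?_⟩
  simp only [DM, h2.fderiv_eq]

theorem Quo.herm (h : C.Quo N π A σ) {H : C.ι → C2 → Mx 2} (hH : C.Met H) :
    Herm A fun a => H (σ a).1 := by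
  refine ⟨fun a j k => h.tgt a ▸ hH.sm _ j k, fun a z hz => hH.pos _ z (h.tgt a ▸ hz),
    fun a b z hz => ?_⟩
  obtain ⟨m, p, h1, h2, h3, h4, h5⟩ := h.ov hz
  have e := hH.tr _ _ p h1 h2
  rwa [h3, h4, h5] at e

theorem Quo.isF (h : C.Quo N π A σ) {φ : C.I → C2 → ℝ} (hφ : C.Fo φ)
    (hp : ∀ (i : C.I) (m : ℤ), φ (i.1, i.2 - m * N) = φ i) : IsF A fun a => φ (σ a) := by
  refine ⟨fun a => h.tgt a ▸ hφ.sm _, fun a b z hz => ?_⟩
  obtain ⟨m, p, h1, h2, h3, h4, h5⟩ := h.ov hz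
  have e := hφ.tr _ _ p h1 h2
  rwa [h3, h4, h5, hp] at e

variable (C)

theorem erg [ConnectedSpace M] : C.Erg := by
  obtain ⟨H, hH⟩ := C.exists_met
  obtain ⟨c, hc, hb⟩ := fro_unif (fun a j k => (hH.sm a j k).continuousOn) hH.pos
  obtain ⟨N₀, hN₀⟩ := exists_nat_gt (2 * C.R)
  refine ⟨c, N₀, hc, fun N hN h0 F hF hP => ?_⟩
  obtain ⟨Y, _, π, _, _, _, hO⟩ := C.exists_orb h0
  obtain ⟨A, σ, hQ⟩ := hO.atl C h0 (hN₀.trans_le (Nat.cast_le.2 hN))
  obtain ⟨u, s, hu, he⟩ := (hQ.herm hH).solve two_pos (hQ.isF (C.fo_wg hF) (C.wg_per hP))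
    (hQ.isF C.fo_tau fun _ _ => rfl) fun a z hz => hH.drift _ z (hQ.tgt a ▸ hz)
  have hπ : ∀ (m : ℤ) p, π ((C.g ^ (m * N)) p) = π p := fun m p =>
    ((hO.fib _ _).2 ⟨m, rfl⟩).symm
  have hl : ∀ (a : A.ι) (m : ℤ) z,
      u (π ((C.ch ((σ a).1, (σ a).2 - m * N)).symm z)) = A.loc a u z := fun a m z => by
    rw [C.ch_symm_shift, hπ, ← hQ.symm]
    rfl
  have hu' : ∀ p, SmAt (fun q => (u (π q) : ℂ)) p := fun p => by
    obtain ⟨a, m, e⟩ := hQ.all (C.idx p)
    have hp := (C.mem_U_idx p).1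
    refine ((C.isCh _).sm p hp _).2 ?_
    have ht : (C.ch (C.idx p)).target ∈ 𝓝 (C.ch (C.idx p) p) :=
      (C.ch _).open_target.mem_nhds ((C.ch _).map_source hp)
    filter_upwards [eventually_mem_nhds_iff.2 ht] with z hz
    rw [C.ch_target, ← hQ.tgt a] at hz
    have e2 : (fun q => (u (π q) : ℂ)) ∘ (C.ch (C.idx p)).symm =
        fun w => ((A.loc a u w : ℝ) : ℂ) := by
      funext w
      rw [← hl a m, ← e]
      rfl
    rw [e2]
    exact Complex.ofRealCLM.contDiff.contDiffAt.comp z ((hu a).contDiffAt hz)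
  set w : C.I → M → ℝ := fun i p => (u (π p) + s * (C.t p + i.2)) / 2 with hw
  have hws : ∀ i p, SmAt (fun q => (Real.exp (w i q) : ℂ)) p := fun i p =>
    ((((hu' p).add (((C.t_sm p).add (smAt_const (i.2 : ℂ))).smul s)).smul 2⁻¹).exp).congr
      (.of_forall fun q => by simp [hw, div_eq_inv_mul, mul_add])
  have h1 : ∀ i q, (Real.exp (w i q) : ℂ) ≠ 0 := fun i q =>
    Complex.ofReal_ne_zero.2 (Real.exp_ne_zero _)
  have hn : ∀ i q, ‖F i q * (Real.exp (w i q) : ℂ)‖ = ‖F i q‖ * Real.exp (w i q) := fun i q => by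
    rw [norm_mul, Complex.norm_real, Real.norm_eq_abs, Real.abs_exp]
  refine ⟨fun i p => F i p * (Real.exp (w i p) : ℂ), ⟨fun i p hp => mul_ne_zero (hF.ne i p hp)
    (h1 i p), fun i j p hp => ?_, fun i p hp => ?_⟩, ?_, fun i p hp => ?_, fun i z hz => ?_⟩
  · refine ((hF.hol i j p hp).smul (Real.exp (s * (i.2 - j.2) / 2) : ℝ)).congr
      (.of_forall fun q => ?_)
    have e : w i q = s * (i.2 - j.2) / 2 + w j q := by
      simp only [hw]
      ring
    simp only [Pi.smul_apply, Pi.div_apply, smul_eq_mul, e, Real.exp_add, Complex.ofReal_mul]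
    rw [← mul_assoc, mul_div_mul_right _ _ (h1 j q), mul_comm (F i q), mul_div_assoc _ (F i q)]
  · exact ((hF.met i p hp).mul (hws i p)).congr (.of_forall fun q => by
      simp only [Pi.mul_apply, hn, Complex.ofReal_mul])
  · funext i p
    have e := hπ 1 p
    rw [one_mul] at e
    have e' : w (i.1, i.2 - N) ((C.g ^ (N : ℤ)) p) = w i p := by
      simp only [hw, e, C.t_gz]
      push_cast
      ring
    exact congrArg₂ (· * ·) (congrFun (congrFun hP i) p) (congrArg (fun x => (Real.exp x : ℂ)) e')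
  · refine (hws i p).congr ?_
    filter_upwards [(C.isOpen_U i 4).mem_nhds hp] with q hq
    rw [Pi.div_apply, mul_div_cancel_left₀ _ (hF.ne i q hq)]
  · obtain ⟨a, m, e⟩ := hQ.all i
    have hz4 : z ∈ ball (0 : C2) 4 := closedBall_subset_ball (by norm_num) hz
    have hz' : z ∈ (A.e a).target := hQ.tgt a ▸ hz4
    have e1 : C.wg (fun i p => F i p * (Real.exp (w i p) : ℂ)) i =ᶠ[𝓝 z]
        C.wg F (σ a) + A.loc a u + s • C.tau (σ a).1 := by
      filter_upwards [isOpen_ball.mem_nhds hz4] with y hy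
      have h2 := hF.ne i _ (C.symm_mem_U i le_rfl (mem_ball_zero_iff.1 hy)).1
      have h3 : (σ a).1 = i.1 := by rw [e]
      rw [← C.wg_per hP (σ a) m, ← e, h3]
      simp only [wg, hn, Pi.add_apply, Pi.smul_apply, smul_eq_mul, C.tau_eq, ← hl a m, ← e]
      rw [mul_pow, Real.log_mul (pow_ne_zero _ (norm_ne_zero_iff.2 h2)) (by positivity),
        Real.log_pow (Real.exp _), Real.log_exp, hw]
      push_cast
      ring
    have h4 : ContDiffAt ℝ ∞ (C.wg F (σ a) + A.loc a u + s • C.tau (σ a).1) z :=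
      ((((C.fo_wg hF).sm _).contDiffAt (isOpen_ball.mem_nhds hz4)).add
        ((hu a).contDiffAt ((A.e a).open_target.mem_nhds hz'))).add
        (((C.fo_tau.sm (σ a)).contDiffAt (isOpen_ball.mem_nhds hz4)).const_smul s)
    rw [P272.LM_congr e1]
    refine (hb _ z hz _ (P272.LM_herm h4) (he a z hz')).trans
      (mul_le_mul_of_nonneg_left ?_ hc.le)
    have : (0 : ℝ) ≤ 1 / N := by positivity
    linarith

end Cov

end Vale.Agent.P267
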